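import Mathlib
import Vale.Agent.Lib.P335.helper26.Abstract

/-!
# Abstract pairwise inequality for two non-commuting pair resamplings (graph case of P335)

`Rp = cexp κp`, `Rq = cexp κq` are the two pair resamplings, `Tp = cexp lp`, `Tq = cexp lq` the
finer resamplings that keep the cross block, `τ` is the switch involution on the cross block.
Under formal commutation hypotheses and one sector hypothesis `hS`, we get

`ip (f - Rp f) (f - Rq f) ≥ (1/4) ∑ (f x - f (τ x))^2 - (1/2) Kp - (1/2) Kq`.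
-/

namespace Vale.Agent.Lib.P335.H12

open Finset
open Vale.Agent.Lib.P335.Bip

section

variable {Ω : Type*} [Fintype Ω]

/-- Two commuting symmetric idempotents have a nonnegative product form. -/
theorem comm_proj_nonneg (A B : (Ω → ℝ) →ₗ[ℝ] (Ω → ℝ))
    (hA : ∀ f g, ip f (A g) = ip (A f) g) (hB : ∀ f g, ip f (B g) = ip (B f) g)
    (hA2 : ∀ f, A (A f) = A f) (hB2 : ∀ f, B (B f) = B f)
    (u : Ω → ℝ) (hAB : A (B u) = B (A u)) : 0 ≤ ip (A u) (B u) := by
  have h : ip (A u) (B u) = ip (A (B u)) (A (B u)) := by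
    rw [← hA (B u) (A (B u)), hA2, hAB, hB (B u) (A u), hB2, ip_comm]
  rw [h]
  exact ip_self_nonneg _

/-- Reindexing a sum by an involution. -/
theorem sum_comp_invol (τ : Ω → Ω) (hτ : ∀ x, τ (τ x) = x) (s : Ω → ℝ) :
    ∑ x, s (τ x) = ∑ x, s x := by
  exact Fintype.sum_bijective τ (Function.Involutive.bijective hτ) _ _ (fun _ => rfl)

end

section main

variable {Ω : Type*} [Fintype Ω] [DecidableEq Ω]
variable {Kp Kq Lp Lq : Type*} [DecidableEq Kp] [DecidableEq Kq] [DecidableEq Lp] [DecidableEq Lq]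

omit [DecidableEq Ω] in
/-- `cexp κ` is invariant under precomposition with an involution preserving `κ`. -/
theorem cexp_comp_invol {K : Type*} [DecidableEq K] (κ : Ω → K) (τ : Ω → Ω)
    (hτ : ∀ x, τ (τ x) = x) (hκ : ∀ x, κ (τ x) = κ x) (f : Ω → ℝ) :
    cexp κ (fun x => f (τ x)) = cexp κ f := by
  funext x
  rw [cexp_apply, cexp_apply]
  have h1 : ∑ y ∈ univ.filter (fun y => κ y = κ x), f (τ y)
      = ∑ y ∈ univ.filter (fun y => κ y = κ x), f y := by
    refine Finset.sum_nbij' (fun y => τ y) (fun y => τ y) ?_ ?_ ?_ ?_ ?_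
    · intro y hy
      simp only [Finset.mem_filter, Finset.mem_univ, true_and] at hy ⊢
      rw [hκ]; exact hy
    · intro y hy
      simp only [Finset.mem_filter, Finset.mem_univ, true_and] at hy ⊢
      rw [hκ]; exact hy
    · intro y _
      exact hτ y
    · intro y _
      exact hτ y
    · intro y _
      rfl
  rw [h1]

omit [DecidableEq Ω] in
/-- Equivariance of `cexp l` under an involution mapping `l`-classes to `l`-classes. -/
theorem cexp_equiv_invol {L : Type*} [DecidableEq L] (l : Ω → L) (τ : Ω → Ω)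
    (hτ : ∀ x, τ (τ x) = x) (hl : ∀ x y, l x = l y → l (τ x) = l (τ y)) (f : Ω → ℝ) (x : Ω) :
    cexp l (fun y => f (τ y)) x = cexp l f (τ x) := by
  have h := cexp_comp_equiv l (⟨τ, τ, hτ, hτ⟩ : Ω ≃ Ω)
    (fun a b => by
      constructor
      · intro h
        have := hl _ _ h
        simpa [hτ] using this
      · intro h
        exact hl _ _ h) f
  exact congrFun h x

/-- On the set moved by `τ`, for `τ`-symmetric `g`, the fine conditional expectation equals the
conditional expectation given `κ` and the indicator of the moved set. -/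
theorem cexp_merge {K L : Type*} [DecidableEq K] [DecidableEq L] (κ : Ω → K) (l : Ω → L)
    (τ : Ω → Ω) (hτ : ∀ x, τ (τ x) = x)
    (hlκ : ∀ x y, l x = l y → κ x = κ y)
    (hτl : ∀ x y, l x = l y → l (τ x) = l (τ y))
    (hX : ∀ x y, l x = l y → (τ x = x ↔ τ y = y))
    (hm : ∀ x y, τ x ≠ x → τ y ≠ y → κ x = κ y → l y = l x ∨ l y = l (τ x))
    (g : Ω → ℝ) (hg : ∀ x, g (τ x) = g x) (x : Ω) (hx : τ x ≠ x) :
    cexp (fun y => (κ y, decide (τ y ≠ y))) g x = cexp l g x := by
  set κ' : Ω → K × Bool := fun y => (κ y, decide (τ y ≠ y)) with hκ'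
  have href : ∀ a b, l a = l b → κ' a = κ' b := by
    intro a b hab
    simp only [hκ', Prod.mk.injEq]
    refine ⟨hlκ a b hab, ?_⟩
    have := hX a b hab
    by_cases ha : τ a = a
    · have hb : τ b = b := this.mp ha
      simp [ha, hb]
    · have hb : τ b ≠ b := fun hb => ha (this.mpr hb)
      simp [ha, hb]
  -- tower
  have h1 : cexp κ' g = cexp κ' (cexp l g) := (cexp_tower l κ' href g).symm
  rw [h1, cexp_apply]
  -- cexp l g is constant on the κ'-class of x
  have hgτ : (fun y => g (τ y)) = g := funext hg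
  have hconst : ∀ y ∈ univ.filter (fun y => κ' y = κ' x), cexp l g y = cexp l g x := by
    intro y hy
    simp only [Finset.mem_filter, Finset.mem_univ, true_and, hκ', Prod.mk.injEq] at hy
    have hy2 : τ y ≠ y := by
      have := hy.2
      simp only [decide_eq_decide] at this
      exact this.mpr hx
    rcases hm x y hx hy2 hy.1.symm with h | h
    · exact cexp_congr l h g
    · rw [cexp_congr l h g, ← cexp_equiv_invol l τ hτ hτl g x, hgτ]
  rw [Finset.sum_congr rfl hconst, Finset.sum_const, nsmul_eq_mul,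
    mul_div_assoc, mul_comm, div_mul_cancel₀ _ (fib_card_pos κ' x).ne']

/-- **Abstract pairwise inequality.** -/
theorem pair_abstract (κp : Ω → Kp) (κq : Ω → Kq) (lp : Ω → Lp) (lq : Ω → Lq) (τ : Ω → Ω)
    (hlp : ∀ x y, lp x = lp y → κp x = κp y)
    (hlq : ∀ x y, lq x = lq y → κq x = κq y)
    (hTT : ∀ f : Ω → ℝ, cexp lp (cexp lq f) = cexp lq (cexp lp f))
    (hTpRq : ∀ f : Ω → ℝ, cexp lp (cexp κq f) = cexp κq (cexp lp f))
    (hTqRp : ∀ f : Ω → ℝ, cexp lq (cexp κp f) = cexp κp (cexp lq f))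
    (hτ : ∀ x, τ (τ x) = x)
    (hτp : ∀ x, κp (τ x) = κp x) (hτq : ∀ x, κq (τ x) = κq x)
    (hτlp : ∀ x y, lp x = lp y → lp (τ x) = lp (τ y))
    (hτlq : ∀ x y, lq x = lq y → lq (τ x) = lq (τ y))
    (hXp : ∀ x y, lp x = lp y → (τ x = x ↔ τ y = y))
    (hXq : ∀ x y, lq x = lq y → (τ x = x ↔ τ y = y))
    (hmp : ∀ x y, τ x ≠ x → τ y ≠ y → κp x = κp y → lp y = lp x ∨ lp y = lp (τ x))
    (hmq : ∀ x y, τ x ≠ x → τ y ≠ y → κq x = κq y → lq y = lq x ∨ lq y = lq (τ x))
    (hS : ∀ f : Ω → ℝ, 0 ≤ ∑ x, if τ x = x then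
      (cexp lp f x - cexp κp f x) * (cexp lq f x - cexp κq f x) else 0)
    (f : Ω → ℝ) :
    (1 / 4) * ∑ x, (f x - f (τ x)) ^ 2
      - (1 / 2) * ∑ x, (if τ x ≠ x then
          (cexp (fun y => (κp y, decide (τ y ≠ y))) f x - cexp κp f x) ^ 2 else 0)
      - (1 / 2) * ∑ x, (if τ x ≠ x then
          (cexp (fun y => (κq y, decide (τ y ≠ y))) f x - cexp κq f x) ^ 2 else 0)
      ≤ ip (f - cexp κp f) (f - cexp κq f) := by
  classical
  -- symmetric and antisymmetric parts
  set fτ : Ω → ℝ := fun x => f (τ x) with hfτ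
  set g : Ω → ℝ := (1 / 2 : ℝ) • (f + fτ) with hg
  set a : Ω → ℝ := (1 / 2 : ℝ) • (f - fτ) with ha
  have hfga : f = g + a := by
    funext x
    simp only [hg, ha, Pi.add_apply, Pi.smul_apply, Pi.sub_apply, smul_eq_mul]
    ring
  have hgs : ∀ x, g (τ x) = g x := by
    intro x
    simp only [hg, hfτ, Pi.add_apply, Pi.smul_apply, smul_eq_mul, hτ]
    ring
  have has : ∀ x, a (τ x) = - a x := by
    intro x
    simp only [ha, hfτ, Pi.sub_apply, Pi.smul_apply, smul_eq_mul, hτ]
    ring
  -- conditional expectations of fτ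
  have hRpτ : cexp κp fτ = cexp κp f := cexp_comp_invol κp τ hτ hτp f
  have hRqτ : cexp κq fτ = cexp κq f := cexp_comp_invol κq τ hτ hτq f
  have hRpg : cexp κp g = cexp κp f := by
    rw [hg, map_smul, map_add, hRpτ]
    funext x
    simp only [Pi.smul_apply, Pi.add_apply, smul_eq_mul]
    ring
  have hRqg : cexp κq g = cexp κq f := by
    rw [hg, map_smul, map_add, hRqτ]
    funext x
    simp only [Pi.smul_apply, Pi.add_apply, smul_eq_mul]
    ring
  -- the finer merged conditional expectations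
  set κp' : Ω → Kp × Bool := fun y => (κp y, decide (τ y ≠ y)) with hκp'
  set κq' : Ω → Kq × Bool := fun y => (κq y, decide (τ y ≠ y)) with hκq'
  have hτp' : ∀ x, κp' (τ x) = κp' x := by
    intro x
    simp only [hκp', hτp, hτ, Prod.mk.injEq, true_and, decide_eq_decide]
    constructor
    · intro h h2; exact h h2.symm
    · intro h h2; exact h h2.symm
  have hτq' : ∀ x, κq' (τ x) = κq' x := by
    intro x
    simp only [hκq', hτq, hτ, Prod.mk.injEq, true_and, decide_eq_decide]
    constructor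
    · intro h h2; exact h h2.symm
    · intro h h2; exact h h2.symm
  have hRp'g : cexp κp' g = cexp κp' f := by
    rw [hg, map_smul, map_add, cexp_comp_invol κp' τ hτ hτp' f]
    funext x
    simp only [Pi.smul_apply, Pi.add_apply, smul_eq_mul]
    ring
  have hRq'g : cexp κq' g = cexp κq' f := by
    rw [hg, map_smul, map_add, cexp_comp_invol κq' τ hτ hτq' f]
    funext x
    simp only [Pi.smul_apply, Pi.add_apply, smul_eq_mul]
    ring
  -- f - R f = a + (g - R g)
  have hP : f - cexp κp f = a + (g - cexp κp g) := by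
    rw [hRpg]
    funext x
    have := congrFun hfga x
    simp only [Pi.add_apply, Pi.sub_apply] at this ⊢
    linarith
  have hQ : f - cexp κq f = a + (g - cexp κq g) := by
    rw [hRqg]
    funext x
    have := congrFun hfga x
    simp only [Pi.add_apply, Pi.sub_apply] at this ⊢
    linarith
  -- antisymmetric against symmetric is zero
  have hortho : ∀ s : Ω → ℝ, (∀ x, s (τ x) = s x) → ip a s = 0 := by
    intro s hs
    have h1 : ip a s = ∑ x, a (τ x) * s (τ x) := by
      unfold ip
      exact (sum_comp_invol τ hτ (fun x => a x * s x)).symm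
    have h2 : ∑ x, a (τ x) * s (τ x) = - ip a s := by
      unfold ip
      rw [← Finset.sum_neg_distrib]
      refine Finset.sum_congr rfl (fun x _ => ?_)
      rw [has, hs]
      ring
    linarith
  have hsymP : ∀ x, (g - cexp κp g) (τ x) = (g - cexp κp g) x := by
    intro x
    simp only [Pi.sub_apply, hgs]
    rw [cexp_congr κp (hτp x) g]
  have hsymQ : ∀ x, (g - cexp κq g) (τ x) = (g - cexp κq g) x := by
    intro x
    simp only [Pi.sub_apply, hgs]
    rw [cexp_congr κq (hτq x) g]
  have hexp : ip (f - cexp κp f) (f - cexp κq f)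
      = ip a a + ip (g - cexp κp g) (g - cexp κq g) := by
    rw [hP, hQ, ip_add_left, ip_add_right, ip_add_right, hortho _ hsymQ,
      ip_comm (g - cexp κp g) a, hortho _ hsymP]
    ring
  have haa : ip a a = (1 / 4) * ∑ x, (f x - f (τ x)) ^ 2 := by
    unfold ip
    rw [Finset.mul_sum]
    refine Finset.sum_congr rfl (fun x _ => ?_)
    simp only [ha, hfτ, Pi.sub_apply, Pi.smul_apply, smul_eq_mul]
    ring
  -- decomposition of the symmetric part
  set Tp := cexp lp with hTp
  set Tq := cexp lq with hTq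
  set Rp := cexp κp with hRp
  set Rq := cexp κq with hRq
  have hTpRp : ∀ u, Tp (Rp u) = Rp u := fun u => cexp_tower' lp κp hlp u
  have hRpTp : ∀ u, Rp (Tp u) = Rp u := fun u => cexp_tower lp κp hlp u
  have hTqRq : ∀ u, Tq (Rq u) = Rq u := fun u => cexp_tower' lq κq hlq u
  have hRqTq : ∀ u, Rq (Tq u) = Rq u := fun u => cexp_tower lq κq hlq u
  -- the four operators
  set A1 : (Ω → ℝ) →ₗ[ℝ] (Ω → ℝ) := LinearMap.id - Tp with hA1
  set B1 : (Ω → ℝ) →ₗ[ℝ] (Ω → ℝ) := LinearMap.id - Tq with hB1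
  set A2 : (Ω → ℝ) →ₗ[ℝ] (Ω → ℝ) := Tp - Rp with hA2
  set B2 : (Ω → ℝ) →ₗ[ℝ] (Ω → ℝ) := Tq - Rq with hB2
  have sA1 : ∀ u v, ip u (A1 v) = ip (A1 u) v := by
    intro u v
    simp only [hA1, LinearMap.sub_apply, LinearMap.id_apply, ip_sub_left, ip_sub_right, hTp,
      cexp_symm]
  have sB1 : ∀ u v, ip u (B1 v) = ip (B1 u) v := by
    intro u v
    simp only [hB1, LinearMap.sub_apply, LinearMap.id_apply, ip_sub_left, ip_sub_right, hTq,
      cexp_symm]
  have sA2 : ∀ u v, ip u (A2 v) = ip (A2 u) v := by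
    intro u v
    simp only [hA2, LinearMap.sub_apply, ip_sub_left, ip_sub_right, hTp, hRp, cexp_symm]
  have sB2 : ∀ u v, ip u (B2 v) = ip (B2 u) v := by
    intro u v
    simp only [hB2, LinearMap.sub_apply, ip_sub_left, ip_sub_right, hTq, hRq, cexp_symm]
  have iA1 : ∀ u, A1 (A1 u) = A1 u := by
    intro u
    simp only [hA1, LinearMap.sub_apply, LinearMap.id_apply, map_sub, hTp, cexp_idem]
    abel
  have iB1 : ∀ u, B1 (B1 u) = B1 u := by
    intro u
    simp only [hB1, LinearMap.sub_apply, LinearMap.id_apply, map_sub, hTq, cexp_idem]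
    abel
  have iA2 : ∀ u, A2 (A2 u) = A2 u := by
    intro u
    simp only [hA2, LinearMap.sub_apply, map_sub]
    rw [hTpRp, hRpTp, hTp, hRp, cexp_idem, cexp_idem]
    abel
  have iB2 : ∀ u, B2 (B2 u) = B2 u := by
    intro u
    simp only [hB2, LinearMap.sub_apply, map_sub]
    rw [hTqRq, hRqTq, hTq, hRq, cexp_idem, cexp_idem]
    abel
  have c11 : ∀ u, A1 (B1 u) = B1 (A1 u) := by
    intro u
    simp only [hA1, hB1, LinearMap.sub_apply, LinearMap.id_apply, map_sub]
    rw [hTT u]
    abel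
  have c12 : ∀ u, A1 (B2 u) = B2 (A1 u) := by
    intro u
    simp only [hA1, hB2, LinearMap.sub_apply, LinearMap.id_apply, map_sub]
    rw [hTT u, hTpRq u]
    abel
  have c21 : ∀ u, A2 (B1 u) = B1 (A2 u) := by
    intro u
    simp only [hA2, hB1, LinearMap.sub_apply, LinearMap.id_apply, map_sub]
    rw [hTT u, hTqRp u]
    abel
  have n11 := comm_proj_nonneg A1 B1 sA1 sB1 iA1 iB1 g (c11 g)
  have n12 := comm_proj_nonneg A1 B2 sA1 sB2 iA1 iB2 g (c12 g)
  have n21 := comm_proj_nonneg A2 B1 sA2 sB1 iA2 iB1 g (c21 g)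
  have hdecP : g - Rp g = A1 g + A2 g := by
    simp only [hA1, hA2, LinearMap.sub_apply, LinearMap.id_apply]
    abel
  have hdecQ : g - Rq g = B1 g + B2 g := by
    simp only [hB1, hB2, LinearMap.sub_apply, LinearMap.id_apply]
    abel
  have hsplit : ip (g - Rp g) (g - Rq g)
      = ip (A1 g) (B1 g) + ip (A1 g) (B2 g) + ip (A2 g) (B1 g) + ip (A2 g) (B2 g) := by
    rw [hdecP, hdecQ, ip_add_left, ip_add_right, ip_add_right]
    ring
  -- the last term
  have hlast : ip (A2 g) (B2 g) ≥
      - (1 / 2) * ∑ x, (if τ x ≠ x then (cexp κp' f x - Rp f x) ^ 2 else 0)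
      - (1 / 2) * ∑ x, (if τ x ≠ x then (cexp κq' f x - Rq f x) ^ 2 else 0) := by
    have hS' := hS g
    have hsum : ip (A2 g) (B2 g)
        = (∑ x, if τ x = x then (Tp g x - Rp g x) * (Tq g x - Rq g x) else 0)
          + ∑ x, if τ x ≠ x then (Tp g x - Rp g x) * (Tq g x - Rq g x) else 0 := by
      unfold ip
      rw [← Finset.sum_add_distrib]
      refine Finset.sum_congr rfl (fun x _ => ?_)
      simp only [hA2, hB2, LinearMap.sub_apply, Pi.sub_apply]
      by_cases hx : τ x = x
      · simp [hx]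
      · simp [hx]
    have hpt : ∀ x, (if τ x ≠ x then (Tp g x - Rp g x) * (Tq g x - Rq g x) else 0)
        ≥ - (1 / 2) * (if τ x ≠ x then (cexp κp' f x - Rp f x) ^ 2 else 0)
          - (1 / 2) * (if τ x ≠ x then (cexp κq' f x - Rq f x) ^ 2 else 0) := by
      intro x
      by_cases hx : τ x ≠ x
      · rw [if_pos hx, if_pos hx, if_pos hx]
        have e1 : Tp g x = cexp κp' f x := by
          rw [← hRp'g]
          exact (cexp_merge κp lp τ hτ hlp hτlp hXp hmp g hgs x hx).symm
        have e2 : Tq g x = cexp κq' f x := by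
          rw [← hRq'g]
          exact (cexp_merge κq lq τ hτ hlq hτlq hXq hmq g hgs x hx).symm
        have e3 : Rp g x = Rp f x := by rw [hRp, hRpg]
        have e4 : Rq g x = Rq f x := by rw [hRq, hRqg]
        rw [e1, e2, e3, e4]
        nlinarith [sq_nonneg ((cexp κp' f x - Rp f x) + (cexp κq' f x - Rq f x))]
      · rw [if_neg hx, if_neg hx, if_neg hx]
        simp
    have hsum2 : ∑ x, (if τ x ≠ x then (Tp g x - Rp g x) * (Tq g x - Rq g x) else 0)
        ≥ ∑ x, (- (1 / 2) * (if τ x ≠ x then (cexp κp' f x - Rp f x) ^ 2 else 0)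
          - (1 / 2) * (if τ x ≠ x then (cexp κq' f x - Rq f x) ^ 2 else 0)) :=
      Finset.sum_le_sum (fun x _ => hpt x)
    rw [Finset.sum_sub_distrib, ← Finset.mul_sum, ← Finset.mul_sum] at hsum2
    rw [hsum]
    have hS'' : 0 ≤ ∑ x, if τ x = x then (Tp g x - Rp g x) * (Tq g x - Rq g x) else 0 := hS'
    linarith
  rw [hexp, haa, hsplit]
  linarith

end main

section sectors

variable {Ω : Type*} [Fintype Ω] [DecidableEq Ω]
variable {Kp Kq Lp Lq : Type*} [DecidableEq Kp] [DecidableEq Kq] [DecidableEq Lp] [DecidableEq Lq]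

omit [DecidableEq Ω] in
/-- Multiplication by the indicator of a `κ`-measurable set commutes with `cexp κ`. -/
theorem cexp_indicator {K : Type*} [DecidableEq K] (κ : Ω → K) (O : Ω → Prop) [DecidablePred O]
    (hO : ∀ x y, κ x = κ y → (O x ↔ O y)) (f : Ω → ℝ) :
    cexp κ (fun x => if O x then f x else 0) = fun x => if O x then cexp κ f x else 0 := by
  funext x
  rw [cexp_apply]
  by_cases hx : O x
  · rw [if_pos hx, cexp_apply]
    congr 1
    refine Finset.sum_congr rfl (fun y hy => ?_)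
    simp only [Finset.mem_filter, Finset.mem_univ, true_and] at hy
    rw [if_pos ((hO y x hy).mpr hx)]
  · rw [if_neg hx]
    have : ∑ y ∈ univ.filter (fun y => κ y = κ x), (if O y then f y else 0) = 0 := by
      refine Finset.sum_eq_zero (fun y hy => ?_)
      simp only [Finset.mem_filter, Finset.mem_univ, true_and] at hy
      rw [if_neg (fun h => hx ((hO y x hy).mp h))]
    rw [this, zero_div]

omit [DecidableEq Ω] in
/-- If the `l`-class of `x` is the whole `κ`-class of `x`, the two conditional expectations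
agree at `x`. -/
theorem cexp_eq_of_class_eq {K L : Type*} [DecidableEq K] [DecidableEq L] (κ : Ω → K) (l : Ω → L)
    (hlκ : ∀ x y, l x = l y → κ x = κ y) (x : Ω) (h : ∀ y, κ y = κ x → l y = l x) (f : Ω → ℝ) :
    cexp l f x = cexp κ f x := by
  rw [cexp_apply, cexp_apply]
  have : univ.filter (fun y => l y = l x) = univ.filter (fun y => κ y = κ x) := by
    ext y
    simp only [Finset.mem_filter, Finset.mem_univ, true_and]
    exact ⟨fun hy => hlκ y x hy, fun hy => h y hy⟩
  rw [this]

/-- **Sector hypothesis from simpler facts**: the sum over `τ`-fixed points of the products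
`(Tp f - Rp f) (Tq f - Rq f)` is nonnegative, provided the fixed points split into an
`odd` part on which `Rp` and `Rq` commute and a part on which one factor vanishes. -/
theorem hS_of_sectors (κp : Ω → Kp) (κq : Ω → Kq) (lp : Ω → Lp) (lq : Ω → Lq) (τ : Ω → Ω)
    (odd : Ω → Prop) [DecidablePred odd]
    (hlp : ∀ x y, lp x = lp y → κp x = κp y)
    (hlq : ∀ x y, lq x = lq y → κq x = κq y)
    (hTT : ∀ f : Ω → ℝ, cexp lp (cexp lq f) = cexp lq (cexp lp f))
    (hTpRq : ∀ f : Ω → ℝ, cexp lp (cexp κq f) = cexp κq (cexp lp f))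
    (hTqRp : ∀ f : Ω → ℝ, cexp lq (cexp κp f) = cexp κp (cexp lq f))
    (hoddp : ∀ x y, κp x = κp y → (odd x ↔ odd y))
    (hoddq : ∀ x y, κq x = κq y → (odd x ↔ odd y))
    (hRR : ∀ f : Ω → ℝ, (∀ x, ¬ odd x → f x = 0) →
      cexp κp (cexp κq f) = cexp κq (cexp κp f))
    (hoddτ : ∀ x, odd x → τ x = x)
    (hpt : ∀ x, τ x = x → ¬ odd x →
      (∀ y, κp y = κp x → lp y = lp x) ∨ (∀ y, κq y = κq x → lq y = lq x))
    (f : Ω → ℝ) :
    0 ≤ ∑ x, if τ x = x then
      (cexp lp f x - cexp κp f x) * (cexp lq f x - cexp κq f x) else 0 := by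
  classical
  set h : Ω → ℝ := fun x => if odd x then f x else 0 with hh
  have hoddlp : ∀ x y, lp x = lp y → (odd x ↔ odd y) := fun x y e => hoddp x y (hlp x y e)
  have hoddlq : ∀ x y, lq x = lq y → (odd x ↔ odd y) := fun x y e => hoddq x y (hlq x y e)
  set A2 : (Ω → ℝ) →ₗ[ℝ] (Ω → ℝ) := cexp lp - cexp κp with hA2
  set B2 : (Ω → ℝ) →ₗ[ℝ] (Ω → ℝ) := cexp lq - cexp κq with hB2
  have hTpRp : ∀ u, cexp lp (cexp κp u) = cexp κp u := fun u => cexp_tower' lp κp hlp u
  have hRpTp : ∀ u, cexp κp (cexp lp u) = cexp κp u := fun u => cexp_tower lp κp hlp u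
  have hTqRq : ∀ u, cexp lq (cexp κq u) = cexp κq u := fun u => cexp_tower' lq κq hlq u
  have hRqTq : ∀ u, cexp κq (cexp lq u) = cexp κq u := fun u => cexp_tower lq κq hlq u
  have sA2 : ∀ u v, ip u (A2 v) = ip (A2 u) v := by
    intro u v
    simp only [hA2, LinearMap.sub_apply, ip_sub_left, ip_sub_right, cexp_symm]
  have sB2 : ∀ u v, ip u (B2 v) = ip (B2 u) v := by
    intro u v
    simp only [hB2, LinearMap.sub_apply, ip_sub_left, ip_sub_right, cexp_symm]
  have iA2 : ∀ u, A2 (A2 u) = A2 u := by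
    intro u
    simp only [hA2, LinearMap.sub_apply, map_sub]
    rw [hTpRp, hRpTp, cexp_idem, cexp_idem]
    abel
  have iB2 : ∀ u, B2 (B2 u) = B2 u := by
    intro u
    simp only [hB2, LinearMap.sub_apply, map_sub]
    rw [hTqRq, hRqTq, cexp_idem, cexp_idem]
    abel
  have hsupp : ∀ x, ¬ odd x → h x = 0 := by
    intro x hx
    simp only [hh, if_neg hx]
  have c22 : A2 (B2 h) = B2 (A2 h) := by
    simp only [hA2, hB2, LinearMap.sub_apply, map_sub]
    rw [hTT h, hTpRq h, hTqRp h, hRR h hsupp]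
    abel
  have hnn := comm_proj_nonneg A2 B2 sA2 sB2 iA2 iB2 h c22
  -- identify the sum
  have hA2h : A2 h = fun x => if odd x then (cexp lp f x - cexp κp f x) else 0 := by
    simp only [hA2, LinearMap.sub_apply, hh]
    rw [cexp_indicator lp odd hoddlp f, cexp_indicator κp odd hoddp f]
    funext x
    simp only [Pi.sub_apply]
    split_ifs <;> simp
  have hB2h : B2 h = fun x => if odd x then (cexp lq f x - cexp κq f x) else 0 := by
    simp only [hB2, LinearMap.sub_apply, hh]
    rw [cexp_indicator lq odd hoddlq f, cexp_indicator κq odd hoddq f]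
    funext x
    simp only [Pi.sub_apply]
    split_ifs <;> simp
  have hsum : (∑ x, if τ x = x then
      (cexp lp f x - cexp κp f x) * (cexp lq f x - cexp κq f x) else 0)
      = ip (A2 h) (B2 h) := by
    rw [hA2h, hB2h]
    unfold ip
    refine Finset.sum_congr rfl (fun x _ => ?_)
    beta_reduce
    by_cases hx : odd x
    · rw [if_pos (hoddτ x hx), if_pos hx, if_pos hx]
    · rw [if_neg hx, if_neg hx]
      by_cases hfix : τ x = x
      · rw [if_pos hfix]
        rcases hpt x hfix hx with h1 | h1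
        · rw [cexp_eq_of_class_eq κp lp hlp x h1 f]; simp
        · rw [cexp_eq_of_class_eq κq lq hlq x h1 f]; simp
      · rw [if_neg hfix]; simp
  rw [hsum]
  exact hnn

end sectors

end Vale.Agent.Lib.P335.H12
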