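import Mathlib
import Vale.Agent.Lib.P335.helper26.Abstract

/-!
# Commutation of two conditional expectations on a sector

If `O` is measurable for both keys, the pair of keys is injective on `O`, and the fibres of the
first key can be merged along the second key inside `O`, then `cexp κ₁` and `cexp κ₂` commute
on functions supported on `O`.
-/

namespace Vale.Agent.Lib.P335.H12

open Finset
open Vale.Agent.Lib.P335.Bip

section abstract_on

variable {Ω : Type*} [Fintype Ω]

/-- The key `κ` restricted to the sector `O` (everything outside `O` is lumped together). -/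
def okey {K : Type*} (κ : Ω → K) (O : Ω → Prop) [DecidablePred O] : Ω → Option K :=
  fun x => if O x then some (κ x) else none

omit [Fintype Ω] in
theorem okey_eq_iff {K : Type*} (κ : Ω → K) (O : Ω → Prop) [DecidablePred O] (x y : Ω)
    (hx : O x) : okey κ O y = okey κ O x ↔ O y ∧ κ y = κ x := by
  unfold okey
  rw [if_pos hx]
  by_cases hy : O y
  · rw [if_pos hy]
    constructor
    · intro h
      exact ⟨hy, Option.some.inj h⟩
    · intro h
      rw [h.2]
  · rw [if_neg hy]
    constructor
    · intro h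
      cases h
    · intro h
      exact absurd h.1 hy

/-- `cexp κ f` vanishes outside a `κ`-measurable set outside which `f` vanishes. -/
theorem cexp_supp {K : Type*} [DecidableEq K] (κ : Ω → K) (O : Ω → Prop)
    (hO : ∀ x y, κ x = κ y → (O x ↔ O y)) (f : Ω → ℝ) (hf : ∀ x, ¬ O x → f x = 0)
    (x : Ω) (hx : ¬ O x) : cexp κ f x = 0 := by
  rw [cexp_apply]
  have h2 : ∑ y ∈ univ.filter (fun y => κ y = κ x), f y = 0 := by
    apply Finset.sum_eq_zero
    intro y hy
    simp only [mem_filter, mem_univ, true_and] at hy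
    exact hf y (fun hOy => hx ((hO y x hy).mp hOy))
  rw [h2, zero_div]

theorem cexp_okey {K : Type*} [DecidableEq K] (κ : Ω → K) (O : Ω → Prop) [DecidablePred O]
    (hO : ∀ x y, κ x = κ y → (O x ↔ O y)) (f : Ω → ℝ) (hf : ∀ x, ¬ O x → f x = 0) :
    cexp (okey κ O) f = cexp κ f := by
  funext x
  by_cases hx : O x
  · rw [cexp_apply, cexp_apply]
    have : univ.filter (fun y => okey κ O y = okey κ O x) = univ.filter (fun y => κ y = κ x) := by
      ext y
      simp only [mem_filter, mem_univ, true_and]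
      rw [okey_eq_iff κ O x y hx]
      constructor
      · intro h
        exact h.2
      · intro h
        exact ⟨(hO y x h).mpr hx, h⟩
    rw [this]
  · rw [cexp_supp κ O hO f hf x hx, cexp_apply]
    have h1 : ∑ y ∈ univ.filter (fun y => okey κ O y = okey κ O x), f y = 0 := by
      apply Finset.sum_eq_zero
      intro y hy
      simp only [mem_filter, mem_univ, true_and] at hy
      apply hf
      intro hOy
      have h3 : okey κ O y = some (κ y) := by unfold okey; rw [if_pos hOy]
      have h4 : okey κ O x = none := by unfold okey; rw [if_neg hx]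
      rw [h3, h4] at hy
      cases hy
    rw [h1, zero_div]

/-- **Sector commutation.** -/
theorem cexp_comm_on {K₁ K₂ : Type*} [DecidableEq K₁] [DecidableEq K₂]
    (κ₁ : Ω → K₁) (κ₂ : Ω → K₂) (O : Ω → Prop) [DecidablePred O]
    (hO₁ : ∀ x y, κ₁ x = κ₁ y → (O x ↔ O y)) (hO₂ : ∀ x y, κ₂ x = κ₂ y → (O x ↔ O y))
    (hinj : ∀ x y, O x → O y → κ₁ x = κ₁ y → κ₂ x = κ₂ y → x = y)
    (hmg : ∀ x y, O x → O y → κ₂ x = κ₂ y → ∀ z, κ₁ z = κ₁ x →
      ∃ z', κ₁ z' = κ₁ y ∧ κ₂ z' = κ₂ z)
    (f : Ω → ℝ) (hf : ∀ x, ¬ O x → f x = 0) :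
    cexp κ₁ (cexp κ₂ f) = cexp κ₂ (cexp κ₁ f) := by
  classical
  have hc : ∀ g : Ω → ℝ, cexp (okey κ₁ O) (cexp (okey κ₂ O) g)
      = cexp (okey κ₂ O) (cexp (okey κ₁ O) g) := by
    intro g
    apply cexp_comm_of_preserves
    intro g hg x y hxy
    by_cases hx : O x
    · have hxy' := (okey_eq_iff κ₂ O y x (by
        by_contra hy
        have h3 : okey κ₂ O x = some (κ₂ x) := by unfold okey; rw [if_pos hx]
        have h4 : okey κ₂ O y = none := by unfold okey; rw [if_neg hy]
        rw [h3, h4] at hxy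
        cases hxy)).mp hxy
      have hy : O y := by
        by_contra hy
        have h3 : okey κ₂ O x = some (κ₂ x) := by unfold okey; rw [if_pos hx]
        have h4 : okey κ₂ O y = none := by unfold okey; rw [if_neg hy]
        rw [h3, h4] at hxy
        cases hxy
      have hk : κ₂ x = κ₂ y := hxy'.2
      -- merge maps
      have hm : ∀ t : Ω, ∃ t', κ₁ t = κ₁ x → (κ₁ t' = κ₁ y ∧ κ₂ t' = κ₂ t) := by
        intro t
        by_cases h : κ₁ t = κ₁ x
        · obtain ⟨t', ht'⟩ := hmg x y hx hy hk t h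
          exact ⟨t', fun _ => ht'⟩
        · exact ⟨t, fun h' => absurd h' h⟩
      have hm' : ∀ t : Ω, ∃ t', κ₁ t = κ₁ y → (κ₁ t' = κ₁ x ∧ κ₂ t' = κ₂ t) := by
        intro t
        by_cases h : κ₁ t = κ₁ y
        · obtain ⟨t', ht'⟩ := hmg y x hy hx hk.symm t h
          exact ⟨t', fun _ => ht'⟩
        · exact ⟨t, fun h' => absurd h' h⟩
      choose β hβ using hm
      choose β' hβ' using hm'
      have memx : ∀ t, t ∈ univ.filter (fun t => okey κ₁ O t = okey κ₁ O x) ↔ κ₁ t = κ₁ x := by
        intro t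
        simp only [mem_filter, mem_univ, true_and]
        rw [okey_eq_iff κ₁ O x t hx]
        exact ⟨fun h => h.2, fun h => ⟨(hO₁ t x h).mpr hx, h⟩⟩
      have memy : ∀ t, t ∈ univ.filter (fun t => okey κ₁ O t = okey κ₁ O y) ↔ κ₁ t = κ₁ y := by
        intro t
        simp only [mem_filter, mem_univ, true_and]
        rw [okey_eq_iff κ₁ O y t hy]
        exact ⟨fun h => h.2, fun h => ⟨(hO₁ t y h).mpr hy, h⟩⟩
      have hbij : ∀ s : Ω → ℝ, (∀ t, κ₁ t = κ₁ x → s (β t) = s t) →
          ∑ t ∈ univ.filter (fun t => okey κ₁ O t = okey κ₁ O x), s t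
            = ∑ t ∈ univ.filter (fun t => okey κ₁ O t = okey κ₁ O y), s t := by
        intro s hs
        refine Finset.sum_nbij' β β' ?_ ?_ ?_ ?_ ?_
        · intro t ht
          rw [memx] at ht
          rw [memy]
          exact (hβ t ht).1
        · intro t ht
          rw [memy] at ht
          rw [memx]
          exact (hβ' t ht).1
        · intro t ht
          rw [memx] at ht
          have h1 := hβ t ht
          have h2 := hβ' (β t) h1.1
          exact hinj _ _ ((hO₁ _ x h2.1).mpr hx) ((hO₁ t x ht).mpr hx) (h2.1.trans ht.symm)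
            (h2.2.trans h1.2)
        · intro t ht
          rw [memy] at ht
          have h1 := hβ' t ht
          have h2 := hβ (β' t) h1.1
          exact hinj _ _ ((hO₁ _ y h2.1).mpr hy) ((hO₁ t y ht).mpr hy) (h2.1.trans ht.symm)
            (h2.2.trans h1.2)
        · intro t ht
          rw [memx] at ht
          exact (hs t ht).symm
      rw [cexp_apply, cexp_apply]
      have hs1 := hbij g (by
        intro t ht
        have h1 := hβ t ht
        apply hg
        have hOt : O t := (hO₁ t x ht).mpr hx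
        have hOb : O (β t) := (hO₁ _ y h1.1).mpr hy
        rw [okey_eq_iff κ₂ O t (β t) hOt]
        exact ⟨hOb, h1.2⟩)
      have hs2 := hbij (fun _ => (1 : ℝ)) (fun _ _ => rfl)
      simp only [Finset.sum_const, nsmul_eq_mul, mul_one] at hs2
      rw [hs1, hs2]
    · have hy : ¬ O y := by
        intro hy
        have h3 : okey κ₂ O y = some (κ₂ y) := by unfold okey; rw [if_pos hy]
        have h4 : okey κ₂ O x = none := by unfold okey; rw [if_neg hx]
        rw [h3, h4] at hxy
        cases hxy
      apply cexp_congr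
      unfold okey
      rw [if_neg hx, if_neg hy]
  have s2 : ∀ x, ¬ O x → cexp κ₂ f x = 0 := cexp_supp κ₂ O hO₂ f hf
  have s1 : ∀ x, ¬ O x → cexp κ₁ f x = 0 := cexp_supp κ₁ O hO₁ f hf
  have e2 : cexp (okey κ₂ O) f = cexp κ₂ f := cexp_okey κ₂ O hO₂ f hf
  have e1 : cexp (okey κ₁ O) f = cexp κ₁ f := cexp_okey κ₁ O hO₁ f hf
  have e12 : cexp (okey κ₁ O) (cexp κ₂ f) = cexp κ₁ (cexp κ₂ f) :=
    cexp_okey κ₁ O hO₁ _ s2
  have e21 : cexp (okey κ₂ O) (cexp κ₁ f) = cexp κ₂ (cexp κ₁ f) :=
    cexp_okey κ₂ O hO₂ _ s1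
  rw [← e12, ← e2, hc f, e1, e21]

end abstract_on

end Vale.Agent.Lib.P335.H12
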